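import Crest.Agent.R189.AmenStab

/-!
# Row 189: recurrent actions (definition), task Amen2: stabilisers, level functions
-/

set_option autoImplicit false

namespace Crest.Agent.R189

open Crest.GroupTheory

/-- recurrent actions: finitely supported functions of small energy equal to `1` on a finite set -/
def Rec (Γ O : Type) [Group Γ] [MulAction Γ O] : Prop :=
  ∀ (S : Finset Γ) (F : Finset O) (ε : ℝ), 0 < ε → ∃ φ : O →₀ ℝ, (∀ x ∈ F, φ x = 1) ∧
    ∀ s ∈ S, ∀ T : Finset O, ∑ x ∈ T, (φ (s • x) - φ x) ^ 2 ≤ ε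

variable {Γ O : Type} [Group Γ] [MulAction Γ O]

theorem Rec.subgroup (h : Rec Γ O) (K : Subgroup Γ) : Rec K O := by
  intro S F ε hε
  obtain ⟨φ, h1, h2⟩ := h (S.map (Function.Embedding.subtype _)) F ε hε
  exact ⟨φ, h1, fun s hs T => h2 s (Finset.mem_map_of_mem _ hs) T⟩

theorem Rec.of_le {K K' : Subgroup Γ} (h : Rec K O) (hK : K' ≤ K) : Rec K' O := by
  intro S F ε hε
  obtain ⟨φ, h1, h2⟩ :=
    h (S.map ⟨Subgroup.inclusion hK, Subgroup.inclusion_injective hK⟩) F ε hε
  exact ⟨φ, h1, fun s hs T => h2 (Subgroup.inclusion hK s) (Finset.mem_map_of_mem _ hs) T⟩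

theorem amen2_orbit (h : Rec Γ O) (x : O) : Rec Γ (MulAction.orbit Γ x) := by
  classical
  intro S F ε hε
  obtain ⟨φ, h1, h2⟩ := h S (F.map (Function.Embedding.subtype _)) ε hε
  refine ⟨φ.subtypeDomain (· ∈ MulAction.orbit Γ x),
    fun y hy => h1 y (Finset.mem_map_of_mem _ hy), fun s hs T => ?_⟩
  have := h2 s hs (T.map (Function.Embedding.subtype _))
  rw [Finset.sum_map] at this
  exact this

theorem amen2_im (h : Rec Γ O) (x : O) : HasIM Γ O := by
  classical
  refine im_of_l2 fun S ε hε => ?_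
  obtain ⟨φ, h1, h2⟩ := h S {x} (ε ^ 2) (by positivity)
  have hx : φ x = 1 := h1 x (Finset.mem_singleton_self x)
  obtain ⟨n, hn⟩ : ∃ n : ℝ, n = ∑ y ∈ φ.support, φ y ^ 2 := ⟨_, rfl⟩
  have hn1 : 1 ≤ n := by
    have hxs : x ∈ φ.support := by
      rw [Finsupp.mem_support_iff, hx]
      exact one_ne_zero
    have := Finset.single_le_sum (f := fun y => φ y ^ 2) (fun y _ => sq_nonneg (φ y)) hxs
    simp only [hx, one_pow] at this
    rw [hn]
    exact this
  have hn0 : 0 < n := by linarith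
  have hc : (√n)⁻¹ ≠ 0 := by positivity
  have hc2 : (√n)⁻¹ * (√n)⁻¹ = n⁻¹ := by rw [← mul_inv, Real.mul_self_sqrt hn0.le]
  refine ⟨(√n)⁻¹ • φ, ?_, fun s hs => ?_⟩
  · rw [Finsupp.support_smul_eq hc]
    have : ∀ y, ((√n)⁻¹ • φ) y ^ 2 = n⁻¹ * φ y ^ 2 := by
      intro y
      rw [Finsupp.smul_apply, smul_eq_mul, ← hc2]
      ring
    simp only [this]
    rw [← Finset.mul_sum, ← hn, inv_mul_cancel₀ hn0.ne']
  · rw [Finsupp.support_smul_eq hc]
    have : ∀ y, ((√n)⁻¹ • φ) y * ((√n)⁻¹ • φ) (s • y) = n⁻¹ * (φ y * φ (s • y)) := by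
      intro y
      rw [Finsupp.smul_apply, Finsupp.smul_apply, smul_eq_mul, smul_eq_mul, ← hc2]
      ring
    simp only [this]
    rw [← Finset.mul_sum, le_inv_mul_iff₀ hn0]
    have h3 := h2 s hs φ.support
    have h4 : ∀ y ∈ φ.support, (1 - ε / 2) * φ y ^ 2 - (φ (s • y) - φ y) ^ 2 / (2 * ε) ≤
        φ y * φ (s • y) := by
      intro y _
      have e : φ y * φ (s • y) - ((1 - ε / 2) * φ y ^ 2 - (φ (s • y) - φ y) ^ 2 / (2 * ε)) =
          (ε * φ y + (φ (s • y) - φ y)) ^ 2 / (2 * ε) := by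
        field_simp
        ring
      have : 0 ≤ (ε * φ y + (φ (s • y) - φ y)) ^ 2 / (2 * ε) := by positivity
      linarith
    have h5 := Finset.sum_le_sum h4
    rw [Finset.sum_sub_distrib, ← Finset.mul_sum, ← Finset.sum_div, ← hn] at h5
    have h6 : (∑ y ∈ φ.support, (φ (s • y) - φ y) ^ 2) / (2 * ε) ≤ ε / 2 := by
      rw [div_le_iff₀ (by positivity)]
      nlinarith
    nlinarith

/-- Restrict `φ` (with `F = {x}`) to the orbit of `x` and normalise it: its norm is at least `1`,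
and `∑ ξ y * ξ (s • y) = 1 - (∑ (ξ (s • y) - ξ y) ^ 2) / 2`. Then `im_of_l2`, `amen_of_stab` for the
action on `MulAction.orbit Γ x`; the stabilisers are conjugate (`amen_of_injective`). -/
theorem Rec.amen_of_stabilizer (h : Rec Γ O) (x : O) (hx : Amenable (MulAction.stabilizer Γ x)) :
    Amenable Γ := by
  refine amen_of_stab (amen2_im (amen2_orbit h x) ⟨x, MulAction.mem_orbit_self x⟩) fun y => ?_
  obtain ⟨g, hg⟩ := y.2
  have hy : y = g • (⟨x, MulAction.mem_orbit_self x⟩ : MulAction.orbit Γ x) :=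
    Subtype.ext hg.symm
  have hle : MulAction.stabilizer Γ (⟨x, MulAction.mem_orbit_self x⟩ : MulAction.orbit Γ x) ≤
      MulAction.stabilizer Γ x := fun k hk => congrArg Subtype.val hk
  refine amen_of_injective ((Subgroup.inclusion hle).comp
    (MulAction.stabilizerEquivStabilizer hy).symm.toMonoidHom) ?_ hx
  exact (Subgroup.inclusion_injective hle).comp (MulAction.stabilizerEquivStabilizer hy).symm.injective

theorem amen2_fixing {K : Type} [Group K] (hK : Amenable K) (F : Finset O) :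
    ∀ (Γ : Type) [Group Γ] [MulAction Γ O], Rec Γ O →
      ∀ f : fixingSubgroup Γ (F : Set O) →* K, Function.Injective f → Amenable Γ := by
  classical
  induction F using Finset.induction_on with
  | empty =>
    intro Γ _ _ _ f hf
    have hm : ∀ g : Γ, (MonoidHom.id Γ) g ∈ fixingSubgroup Γ ((∅ : Finset O) : Set O) := by
      intro g
      rw [mem_fixingSubgroup_iff]
      intro y hy
      simp at hy
    refine amen_of_injective (f.comp ((MonoidHom.id Γ).codRestrict _ hm)) ?_ hK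
    refine hf.comp fun a b hab => ?_
    exact congrArg Subtype.val hab
  | insert a F _ ih =>
    intro Γ _ _ h f hf
    refine h.amen_of_stabilizer a ?_
    have hm : ∀ g : fixingSubgroup (MulAction.stabilizer Γ a) (F : Set O),
        ((MulAction.stabilizer Γ a).subtype.comp (Subgroup.subtype _)) g ∈
          fixingSubgroup Γ ((insert a F : Finset O) : Set O) := by
      intro g
      rw [mem_fixingSubgroup_iff]
      intro y hy
      rw [Finset.coe_insert, Set.mem_insert_iff] at hy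
      rcases hy with rfl | hy
      · exact g.1.2
      · exact (mem_fixingSubgroup_iff _).1 g.2 y hy
    refine ih (MulAction.stabilizer Γ a) (h.subgroup _)
      (f.comp (MonoidHom.codRestrict _ _ hm)) (hf.comp fun a b hab => ?_)
    have h1 := congrArg Subtype.val hab
    exact Subtype.ext (Subtype.ext h1)

/-- Induction on `F`, for all groups `Γ`. -/
theorem Rec.amen_of_fixing (h : Rec Γ O) (F : Finset O) {K : Type} [Group K] (hK : Amenable K)
    (f : fixingSubgroup Γ (F : Set O) →* K) (hf : Function.Injective f) : Amenable Γ := by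
  exact amen2_fixing hK F Γ h f hf

/-- harmonic numbers -/
noncomputable def amen2H (n : ℕ) : ℝ := ∑ i ∈ Finset.range n, (1 / (i + 1) : ℝ)

theorem amen2H_sub {a b : ℕ} (h : a ≤ b) :
    0 ≤ amen2H b - amen2H a ∧ amen2H b - amen2H a ≤ (b - a : ℝ) / (a + 1) := by
  induction b, h using Nat.le_induction with
  | base => simp
  | succ b hab ih =>
    have e : amen2H (b + 1) = amen2H b + 1 / (b + 1) := Finset.sum_range_succ _ _
    have hab' : (a : ℝ) ≤ b := by exact_mod_cast hab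
    have h1 : (1 : ℝ) / (b + 1) ≤ 1 / (a + 1) := by gcongr
    have h2 : (0 : ℝ) ≤ 1 / (b + 1) := by positivity
    have h3 : (((b + 1 : ℕ) : ℝ) - a) / (a + 1) = (b - a : ℝ) / (a + 1) + 1 / (a + 1) := by
      push_cast
      ring
    rw [h3, e]
    constructor <;> linarith [ih.1, ih.2]

theorem amen2H_close {C n n' : ℕ} (h1 : n' ≤ n + C) (h2 : n ≤ n' + C) :
    |amen2H n' - amen2H n| ≤ (C * (C + 1) : ℝ) / (n + 1) := by
  have h1' : (n' : ℝ) ≤ n + C := by exact_mod_cast h1
  have h2' : (n : ℝ) ≤ n' + C := by exact_mod_cast h2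
  have hC : (0 : ℝ) ≤ C := Nat.cast_nonneg _
  have hn : (0 : ℝ) ≤ n := Nat.cast_nonneg _
  have hn' : (0 : ℝ) ≤ n' := Nat.cast_nonneg _
  rcases le_total n n' with h | h
  · have h3 := amen2H_sub h
    rw [abs_of_nonneg h3.1]
    refine h3.2.trans ?_
    gcongr
    nlinarith
  · have h3 := amen2H_sub h
    rw [abs_sub_comm, abs_of_nonneg h3.1]
    refine h3.2.trans ?_
    rw [div_le_div_iff₀ (by positivity) (by positivity)]
    have h4 : (n + 1 : ℝ) ≤ (C + 1) * (n' + 1) := by nlinarith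
    calc ((n : ℝ) - n') * (n + 1) ≤ C * (n + 1) := by gcongr; linarith
      _ ≤ C * ((C + 1) * (n' + 1)) := by gcongr
      _ = _ := by ring

theorem amen2_clamp (a b : ℝ) : |max 0 (min 1 a) - max 0 (min 1 b)| ≤ |a - b| := by
  have h1 := le_abs_self (a - b)
  have h2 := neg_abs_le (a - b)
  have h3 := abs_nonneg (a - b)
  rw [abs_le]
  simp only [max_def, min_def]
  split_ifs <;> constructor <;> linarith

/-- Proof. Fix `S`, `F`, and `C` which works for all `s ∈ S` and their inverses, so that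
`|lv (s • x) - lv x| ≤ C`. For `N ≥ 1` let `r N n = min 1 (max 0 (2 - n / N))` (equal to `1` for
`n ≤ N`, to `0` for `n ≥ 2 N`, `1 / N`-Lipschitz). The energy of `r N ∘ lv` is at most
`(number of x with lv x ≤ 2 N + C and lv (s • x) ≠ lv x) * (C / N) ^ 2 ≤ C (2 N + C + 1) ^ 2 C ^ 2 / N ^ 2`,
bounded by a constant `E` for `N ≥ C + 1`. Take `N₀ ≥ C + 1` above the levels of `F`,
`N k = 4 ^ k N₀`: the gradients of the `r (N k) ∘ lv` have disjoint supports (levels in
`[N - C, 2 N + C]`), so the average of `n` of them has energy at most `E / n`. -/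
theorem rec_of_level (lv : O → ℕ) (hfin : ∀ n, {x | lv x ≤ n}.Finite)
    (h : ∀ g : Γ, ∃ C : ℕ, (∀ x, lv (g • x) ≤ lv x + C) ∧
      ∀ n, {x | lv x = n ∧ lv (g • x) ≠ n}.ncard ≤ C * (n + 1)) : Rec Γ O := by
  classical
  intro S F ε hε
  choose c hc using h
  obtain ⟨C, hC⟩ : ∃ C : ℕ, ∀ s ∈ S, c s ≤ C ∧ c s⁻¹ ≤ C := by
    refine ⟨∑ s ∈ S, (c s + c s⁻¹), fun s hs => ?_⟩
    have := Finset.single_le_sum (f := fun s => c s + c s⁻¹) (fun _ _ => Nat.zero_le _) hs
    constructor <;> omega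
  obtain ⟨N, hN⟩ : ∃ N : ℕ, ∀ x ∈ F, lv x ≤ N :=
    ⟨F.sup lv, fun x hx => Finset.le_sup hx⟩
  obtain ⟨K, hK⟩ : ∃ K : ℝ, K = C * (C * (C + 1)) ^ 2 := ⟨_, rfl⟩
  have hK0 : 0 ≤ K := by rw [hK]; positivity
  have hH0 : ∀ n, 0 ≤ amen2H n := fun n => Finset.sum_nonneg fun i _ => by positivity
  obtain ⟨M, hM⟩ : ∃ M : ℕ, amen2H N + 1 + K * (1 + amen2H N + C) / ε ≤ amen2H M :=
    (Real.tendsto_sum_range_one_div_nat_succ_atTop.eventually_ge_atTop _).exists
  obtain ⟨L, hL⟩ : ∃ L : ℝ, L = amen2H M - amen2H N := ⟨_, rfl⟩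
  have hA0 : 0 ≤ K * (1 + amen2H N + C) / ε := by
    have := hH0 N
    positivity
  have hL1 : 1 ≤ L := by linarith
  have hL0 : 0 < L := by linarith
  have hL2 : K * (1 + amen2H N + C) ≤ ε * L := by
    have : K * (1 + amen2H N + C) / ε ≤ L := by linarith
    rw [div_le_iff₀ hε] at this
    linarith
  obtain ⟨ρ, hρ⟩ : ∃ ρ : ℕ → ℝ, ∀ n, ρ n = max 0 (min 1 ((amen2H M - amen2H n) / L)) :=
    ⟨_, fun _ => rfl⟩
  have hρ1 : ∀ n ≤ N, ρ n = 1 := by
    intro n hn
    have h1 : 1 ≤ (amen2H M - amen2H n) / L := by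
      rw [le_div_iff₀ hL0]
      linarith [(amen2H_sub hn).1]
    rw [hρ, min_eq_left h1, max_eq_right zero_le_one]
  have hρ0 : ∀ n, M ≤ n → ρ n = 0 := by
    intro n hn
    have h1 : (amen2H M - amen2H n) / L ≤ 0 :=
      div_nonpos_of_nonpos_of_nonneg (by linarith [(amen2H_sub hn).1]) hL0.le
    rw [hρ, max_eq_left ((min_le_right _ _).trans h1)]
  have hρL : ∀ n n' : ℕ, n' ≤ n + C → n ≤ n' + C →
      (ρ n' - ρ n) ^ 2 ≤ ((C * (C + 1) : ℝ) / (n + 1) / L) ^ 2 := by
    intro n n' h1 h2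
    have h3 := amen2_clamp ((amen2H M - amen2H n') / L) ((amen2H M - amen2H n) / L)
    have e : (amen2H M - amen2H n') / L - (amen2H M - amen2H n) / L =
        -((amen2H n' - amen2H n) / L) := by ring
    rw [← hρ, ← hρ, e, abs_neg, abs_div, abs_of_pos hL0] at h3
    have h4 : |amen2H n' - amen2H n| / L ≤ (C * (C + 1) : ℝ) / (n + 1) / L := by
      gcongr
      exact amen2H_close h1 h2
    rw [← sq_abs]
    exact pow_le_pow_left₀ (abs_nonneg _) (h3.trans h4) 2
  refine ⟨Finsupp.onFinset (hfin M).toFinset (fun x => ρ (lv x)) ?_, fun x hx => hρ1 _ (hN x hx),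
    fun s hs T => ?_⟩
  · intro x hx
    rw [Set.Finite.mem_toFinset, Set.mem_ofPred_eq]
    by_contra h1
    exact hx (hρ0 _ (by omega))
  simp only [Finsupp.onFinset_apply]
  have hup : ∀ x, lv (s • x) ≤ lv x + C := fun x => by
    have := (hc s).1 x
    have := (hC s hs).1
    omega
  have hdown : ∀ x, lv x ≤ lv (s • x) + C := fun x => by
    have h1 := (hc s⁻¹).1 (s • x)
    rw [inv_smul_smul] at h1
    have := (hC s hs).2
    omega
  set T' := T.filter fun x => lv x < M + C ∧ lv (s • x) ≠ lv x with hT'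
  have e1 : ∑ x ∈ T, (ρ (lv (s • x)) - ρ (lv x)) ^ 2 = ∑ x ∈ T', (ρ (lv (s • x)) - ρ (lv x)) ^ 2 := by
    symm
    refine Finset.sum_filter_of_ne fun x _ hx => ⟨?_, ?_⟩
    · by_contra h1
      have := hdown x
      rw [hρ0 (lv x) (by omega), hρ0 (lv (s • x)) (by omega)] at hx
      simp at hx
    · intro h1
      rw [h1] at hx
      simp at hx
  have e2 := Finset.sum_fiberwise_of_maps_to (s := T') (t := Finset.range (M + C)) (g := lv)
    (fun x hx => Finset.mem_range.2 (Finset.mem_filter.1 hx).2.1)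
    fun x => (ρ (lv (s • x)) - ρ (lv x)) ^ 2
  rw [e1, ← e2]
  have h1 : ∀ n ∈ Finset.range (M + C), ∑ x ∈ T'.filter (fun x => lv x = n),
      (ρ (lv (s • x)) - ρ (lv x)) ^ 2 ≤ K / L ^ 2 * (1 / (n + 1)) := by
    intro n _
    have h2 := Finset.sum_le_card_nsmul (T'.filter fun x => lv x = n)
      (fun x => (ρ (lv (s • x)) - ρ (lv x)) ^ 2) (((C * (C + 1) : ℝ) / (n + 1) / L) ^ 2)
      fun x hx => by
        rw [← (Finset.mem_filter.1 hx).2]
        exact hρL _ _ (hup x) (hdown x)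
    have h3 : (T'.filter fun x => lv x = n).card ≤ C * (n + 1) := by
      refine le_trans ?_ (((hc s).2 n).trans (Nat.mul_le_mul_right _ (hC s hs).1))
      rw [← Set.ncard_coe_finset]
      refine Set.ncard_le_ncard ?_ ((hfin n).subset fun x hx => hx.1.le)
      intro x hx
      rw [Finset.mem_coe, Finset.mem_filter, hT', Finset.mem_filter] at hx
      exact ⟨hx.2, hx.2 ▸ hx.1.2.2⟩
    have h4 : ((T'.filter fun x => lv x = n).card : ℝ) ≤ C * (n + 1) := by exact_mod_cast h3
    rw [nsmul_eq_mul] at h2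
    refine h2.trans ?_
    calc ((T'.filter fun x => lv x = n).card : ℝ) * ((C * (C + 1) : ℝ) / (n + 1) / L) ^ 2
        ≤ C * (n + 1) * ((C * (C + 1) : ℝ) / (n + 1) / L) ^ 2 := by gcongr
      _ = K / L ^ 2 * (1 / (n + 1)) := by
        rw [hK]
        field_simp
  refine (Finset.sum_le_sum h1).trans ?_
  rw [← Finset.mul_sum]
  change K / L ^ 2 * amen2H (M + C) ≤ ε
  have h2 : amen2H (M + C) ≤ L * (1 + amen2H N + C) := by
    have h3 := (amen2H_sub (Nat.le_add_right M C)).2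
    have h4 : (((M + C : ℕ) : ℝ) - M) / (M + 1) ≤ C := by
      push_cast
      rw [add_sub_cancel_left]
      exact div_le_self (Nat.cast_nonneg _) (by linarith [(Nat.cast_nonneg M : (0 : ℝ) ≤ M)])
    have h5 : (0 : ℝ) ≤ amen2H N + C := add_nonneg (hH0 N) (Nat.cast_nonneg _)
    nlinarith
  calc K / L ^ 2 * amen2H (M + C) ≤ K / L ^ 2 * (L * (1 + amen2H N + C)) := by gcongr
    _ = K * (1 + amen2H N + C) / L := by field_simp
    _ ≤ ε := by rw [div_le_iff₀ hL0]; exact hL2

end Crest.Agent.R189
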