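import Crest.Agent.R189.Amen1
import Crest.Agent.R190.Mean

/-!
# Row 189, task AmenStab: an amenable action with amenable stabilisers
-/

set_option autoImplicit false

namespace Crest.Agent.R189

open Crest.GroupTheory Filter Topology
open scoped Pointwise ENNReal

variable {Γ Y : Type} [Group Γ] [MulAction Γ Y]

section Integral

open Classical in
/-- staircase approximation of the integral -/
noncomputable def amenstab_J (μ : Set Y → ℝ) (f : Y → ℝ) (M : ℕ) : ℝ :=
  ∑ k ∈ Finset.range M, (M : ℝ)⁻¹ * μ {y | ((k : ℝ) + 1) / M ≤ f y}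

theorem amenstab_J_mem (μ : Set Y → ℝ) (h0 : ∀ s, 0 ≤ μ s) (h1 : ∀ s, μ s ≤ 1) (f : Y → ℝ)
    (M : ℕ) : amenstab_J μ f M ∈ Set.Icc (0 : ℝ) 1 := by
  refine ⟨Finset.sum_nonneg fun k _ => mul_nonneg (by positivity) (h0 _), ?_⟩
  calc amenstab_J μ f M ≤ ∑ _k ∈ Finset.range M, (M : ℝ)⁻¹ :=
        Finset.sum_le_sum fun k _ => mul_le_of_le_one_right (by positivity) (h1 _)
    _ = M * (M : ℝ)⁻¹ := by simp
    _ ≤ 1 := mul_inv_le_one

open Classical in
theorem amenstab_J_add (μ : Set Y → ℝ) (h0 : ∀ s, 0 ≤ μ s)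
    (hadd : ∀ s t : Set Y, μ s = μ (s ∩ t) + μ (s \ t)) (hemp : μ ∅ = 0) (hu : μ Set.univ = 1)
    {f f' : Y → ℝ} (hf : ∀ y, 0 ≤ f y) (hf' : ∀ y, 0 ≤ f' y) (hs : ∀ y, f y + f' y ≤ 1)
    {M : ℕ} (hM : 0 < M) (σ : ℝ) (hσ : |σ| = 1) :
    -(3 * (M : ℝ)⁻¹) ≤
      σ * (amenstab_J μ (fun y => f y + f' y) M - amenstab_J μ f M - amenstab_J μ f' M) := by
  let F : Fin 3 → Y → ℝ := ![fun y => f y + f' y, f, f']
  let c : Fin 3 → ℝ := ![σ, -σ, -σ]
  have key := R190.lin_comb_le μ h0 hadd hemp (fun p : Fin 3 × ℕ => c p.1 * (M : ℝ)⁻¹)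
    (fun p => {y | ((p.2 : ℝ) + 1) / M ≤ F p.1 y}) (Finset.univ ×ˢ Finset.range M) Set.univ
    (-(3 * (M : ℝ)⁻¹)) fun y _ => by
      rw [Finset.sum_product, Fin.sum_univ_three]
      have a0 := R190.stair_close hM (add_nonneg (hf y) (hf' y)) (hs y)
      have a1 := R190.stair_close hM (hf y) (by linarith [hs y, hf' y])
      have a2 := R190.stair_close hM (hf' y) (by linarith [hs y, hf y])
      simp only [F, c, Set.mem_setOf_eq, Matrix.cons_val_zero, Matrix.cons_val_one,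
        Matrix.cons_val_two, Matrix.head_cons, Matrix.tail_cons, mul_assoc, ← Finset.mul_sum]
      simp only [← Finset.mul_sum] at a0 a1 a2
      rw [abs_le] at a0 a1 a2
      rcases (abs_eq zero_le_one).1 hσ with rfl | rfl <;> linarith [a0.1, a0.2, a1.1, a1.2, a2.1, a2.2]
  rw [hu, mul_one, Finset.sum_product, Fin.sum_univ_three] at key
  simp only [F, c, Set.univ_inter, Matrix.cons_val_zero, Matrix.cons_val_one,
    Matrix.cons_val_two, Matrix.head_cons, Matrix.tail_cons, mul_assoc, ← Finset.mul_sum] at key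
  simp only [amenstab_J, ← Finset.mul_sum]
  linarith

theorem amenstab_integral (μ : Set Y → ℝ) (h0 : ∀ s, 0 ≤ μ s)
    (hadd : ∀ s t : Set Y, μ s = μ (s ∩ t) + μ (s \ t)) (hu : μ Set.univ = 1) :
    ∃ I : (Y → ℝ) → ℝ, (∀ f, 0 ≤ I f) ∧ I (fun _ => 1) = 1 ∧
      (∀ f f' : Y → ℝ, (∀ y, 0 ≤ f y) → (∀ y, 0 ≤ f' y) → (∀ y, f y + f' y ≤ 1) →
        I (fun y => f y + f' y) = I f + I f') ∧
      ∀ e : Y → Y, (∀ s, μ (e ⁻¹' s) = μ s) → ∀ f, I (fun y => f (e y)) = I f := by
  have hemp : μ ∅ = 0 := by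
    have := hadd ∅ ∅
    rw [Set.empty_inter, Set.empty_sdiff] at this
    linarith
  have h1 : ∀ s, μ s ≤ 1 := fun s => by
    have := hadd Set.univ s
    rw [hu, Set.univ_inter] at this
    linarith [h0 (Set.univ \ s)]
  have hex : ∀ f : Y → ℝ, ∃ a ∈ Set.Icc (0 : ℝ) 1,
      Tendsto (amenstab_J μ f) (hyperfilter ℕ) (𝓝 a) := fun f =>
    isCompact_Icc.ultrafilter_le_nhds' ((hyperfilter ℕ).map (amenstab_J μ f))
      (by
        rw [← Ultrafilter.mem_coe, Ultrafilter.coe_map, mem_map]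
        exact Eventually.of_forall fun M => amenstab_J_mem μ h0 h1 f M)
  choose I hI hT using hex
  have hle : (hyperfilter ℕ : Filter ℕ) ≤ atTop := Nat.hyperfilter_le_atTop
  refine ⟨I, fun f => (hI f).1, ?_, fun f f' hf hf' hs => ?_, fun e he f => ?_⟩
  · refine tendsto_nhds_unique (hT _) (tendsto_const_nhds.congr' ?_)
    filter_upwards [hle (eventually_gt_atTop 0)] with M hM
    have hM' : (0 : ℝ) < M := by exact_mod_cast hM
    have : ∀ k ∈ Finset.range M,
        (M : ℝ)⁻¹ * μ {_y : Y | ((k : ℝ) + 1) / M ≤ 1} = (M : ℝ)⁻¹ := fun k hk => by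
      have hk' : ((k : ℝ) + 1) / M ≤ 1 := by
        rw [div_le_one hM']
        exact_mod_cast Finset.mem_range.1 hk
      simp [hk', hu]
    rw [amenstab_J, Finset.sum_congr rfl this]
    simp [hM'.ne']
  · have t1 := ((hT fun y => f y + f' y).sub (hT f)).sub (hT f')
    have t0 : Tendsto (fun M : ℕ => -(3 * (M : ℝ)⁻¹)) (hyperfilter ℕ) (𝓝 0) := by
      have : Tendsto (fun M : ℕ => -(3 * (M : ℝ)⁻¹)) atTop (𝓝 (-(3 * 0))) :=
        (tendsto_inv_atTop_nhds_zero_nat.const_mul 3).neg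
      simpa using this.mono_left hle
    have key : ∀ σ : ℝ, |σ| = 1 → 0 ≤ σ * (I (fun y => f y + f' y) - I f - I f') := fun σ hσ => by
      refine le_of_tendsto_of_tendsto t0 (t1.const_mul σ) ?_
      filter_upwards [hle (eventually_gt_atTop 0)] with M hM
      exact amenstab_J_add μ h0 hadd hemp hu hf hf' hs hM σ hσ
    linarith [key 1 (by simp), key (-1) (by simp)]
  · refine tendsto_nhds_unique (hT _) ((hT f).congr fun M => ?_)
    refine Finset.sum_congr rfl fun k _ => ?_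
    rw [← he]
    rfl

end Integral

theorem amenstab_real {X : Type} {m : Set X → ℝ≥0∞} (hu : m Set.univ = 1)
    (hadd : ∀ s t : Set X, Disjoint s t → m (s ∪ t) = m s + m t) :
    (∀ s, m s ≠ ⊤) ∧ ∀ s t : Set X, (m s).toReal = (m (s ∩ t)).toReal + (m (s \ t)).toReal := by
  have hsplit : ∀ s t : Set X, m s = m (s ∩ t) + m (s \ t) := fun s t => by
    rw [← hadd _ _ Set.disjoint_sdiff_inter.symm, Set.inter_union_sdiff]
  have hfin : ∀ s, m s ≠ ⊤ := fun s => by
    have := hsplit Set.univ s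
    rw [hu, Set.univ_inter] at this
    exact ne_top_of_le_ne_top ENNReal.one_ne_top (this ▸ le_self_add)
  exact ⟨hfin, fun s t => by rw [hsplit s t, ENNReal.toReal_add (hfin _) (hfin _)]⟩

/-- Integrate, with respect to the invariant probability on `Y`, the functions
`f A y = ν (b y) {k | γ y * k ∈ A}` where `b y` is a base point of the orbit of `y`,
`γ y • b y = y` and `ν x` is an invariant probability on the stabiliser of `x`. -/
theorem amen_of_stab (h : HasIM Γ Y) (hs : ∀ y : Y, Amenable (MulAction.stabilizer Γ y)) :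
    Amenable Γ := by
  obtain ⟨m, hu, hadd, hinv⟩ := h
  obtain ⟨-, hsp⟩ := amenstab_real hu hadd
  obtain ⟨I, I0, I1, Iadd, Iinv⟩ := amenstab_integral (fun s => (m s).toReal)
    (fun _ => ENNReal.toReal_nonneg) hsp (by simp [hu])
  choose ν νu νadd νinv using hs
  let b : Y → Y := fun y => (Quotient.mk (MulAction.orbitRel Γ Y) y).out
  have hb : ∀ (g : Γ) y, b (g • y) = b y := fun g y => by
    have : Quotient.mk (MulAction.orbitRel Γ Y) (g • y) = Quotient.mk _ y :=
      Quotient.sound (MulAction.mem_orbit y g)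
    simp only [b, this]
  have hγ : ∀ y, ∃ γ : Γ, γ • b y = y := fun y => by
    have : (MulAction.orbitRel Γ Y).r y (b y) :=
      (MulAction.orbitRel Γ Y).symm (Quotient.mk_out (s := MulAction.orbitRel Γ Y) y)
    exact this
  choose γ hγ using hγ
  let n : Y → Γ → Set Γ → ℝ := fun x c A =>
    (ν x {k : MulAction.stabilizer Γ x | c * k ∈ A}).toReal
  have nfin : ∀ x s, ν x s ≠ ⊤ := fun x => (amenstab_real (νu x) (νadd x)).1
  have nadd : ∀ x c (A B : Set Γ), Disjoint A B → n x c (A ∪ B) = n x c A + n x c B := by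
    intro x c A B hAB
    simp only [n]
    rw [← ENNReal.toReal_add (nfin _ _) (nfin _ _), ← νadd]
    · rfl
    · exact Set.disjoint_left.2 fun k h1 h2 => Set.disjoint_left.1 hAB h1 h2
  have nu : ∀ x c, n x c Set.univ = 1 := fun x c => by simp [n, νu]
  have n0 : ∀ x c A, 0 ≤ n x c A := fun _ _ _ => ENNReal.toReal_nonneg
  have n1 : ∀ x c A, n x c A ≤ 1 := fun x c A => by
    have := nadd x c A Aᶜ disjoint_compl_right
    rw [Set.union_compl_self, nu] at this
    linarith [n0 x c Aᶜ]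
  have ninv : ∀ x c (k : MulAction.stabilizer Γ x) A, n x (c * k) A = n x c A := by
    intro x c k A
    simp only [n]
    rw [← νinv x k {k' : MulAction.stabilizer Γ x | c * k * k' ∈ A}]
    congr 2
    ext k'
    rw [Set.mem_smul_set_iff_inv_smul_mem]
    simp [mul_assoc]
  refine ⟨fun A => ENNReal.ofReal (I fun y => n (b y) (γ y) A), ?_, fun A B hAB => ?_,
    fun g A => ?_⟩
  · simp only [nu, I1, ENNReal.ofReal_one]
  · simp only [nadd _ _ A B hAB]
    rw [Iadd _ _ (fun y => n0 _ _ _) (fun y => n0 _ _ _)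
      (fun y => by rw [← nadd _ _ A B hAB]; exact n1 _ _ _), ENNReal.ofReal_add (I0 _) (I0 _)]
  · refine congrArg ENNReal.ofReal ?_
    rw [← Iinv (fun y => g • y) (fun s => by
      rw [← hinv g⁻¹ s]
      congr 2
      ext y
      rw [Set.mem_smul_set_iff_inv_smul_mem, inv_inv]
      rfl)]
    refine congrArg I (funext fun y => ?_)
    have hk : (γ y)⁻¹ * g⁻¹ * γ (g • y) ∈ MulAction.stabilizer Γ (b y) := by
      rw [MulAction.mem_stabilizer_iff, mul_smul, mul_smul, ← hb g y, hγ, inv_smul_smul, hb,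
        inv_smul_eq_iff, hγ]
    rw [hb, ← ninv (b y) (γ y) ⟨_, hk⟩ A]
    simp only [n]
    congr 2
    ext k
    simp [Set.mem_smul_set_iff_inv_smul_mem, mul_assoc]

end Crest.Agent.R189
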