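import Crest.Agent.R189.Amen2

/-!
# Row 189, task Cocycle: the kernel of a finitely supported cocycle over a recurrent action is
co-amenable
-/

set_option autoImplicit false

namespace Crest.Agent.R189

open Crest.GroupTheory

variable {Γ O : Type} [Group Γ] [MulAction Γ O]

/-- finitely supported integer functions -/
@[ext] structure cocycle_Y (O : Type) where
  /-- the function -/
  val : O → ℤ
  fin : (Function.support val).Finite

/-- the affine action defined by a cocycle -/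
@[reducible] def cocycle_act (D : Γ → O → ℤ) (hD : ∀ g h x, D (g * h) x = D g (h • x) + D h x)
    (hfin : ∀ g, {x | D g x ≠ 0}.Finite) : MulAction Γ (cocycle_Y O) where
  smul g f := ⟨fun y => f.val (g⁻¹ • y) + D g (g⁻¹ • y), by
    refine ((f.fin.union (hfin g)).image fun x => g • x).subset fun y hy => ⟨g⁻¹ • y, ?_, by simp⟩
    by_contra h
    simp only [Set.mem_union, Function.mem_support, Set.mem_ofPred_eq, not_or, not_not] at h
    exact hy (by simp [h.1, h.2])⟩
  one_smul f := by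
    ext y
    have h := hD 1 1 y
    rw [one_mul, one_smul] at h
    show f.val ((1 : Γ)⁻¹ • y) + D 1 ((1 : Γ)⁻¹ • y) = f.val y
    rw [inv_one, one_smul]
    omega
  mul_smul g h f := by
    ext y
    show f.val ((g * h)⁻¹ • y) + D (g * h) ((g * h)⁻¹ • y) =
      f.val (h⁻¹ • g⁻¹ • y) + D h (h⁻¹ • g⁻¹ • y) + D g (g⁻¹ • y)
    rw [hD, mul_inv_rev, mul_smul, smul_inv_smul]
    ring

theorem cocycle_prod {ι : Type} (s : Finset ι) (a p : ι → ℝ) (h0 : ∀ i ∈ s, 0 ≤ a i)
    (h1 : ∑ i ∈ s, a i ≤ 1) (hp : ∀ i ∈ s, 1 - a i ≤ p i) : 1 - ∑ i ∈ s, a i ≤ ∏ i ∈ s, p i := by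
  classical
  induction s using Finset.induction_on with
  | empty => simp
  | insert i s hi ih =>
    rw [Finset.sum_insert hi] at h1 ⊢
    rw [Finset.prod_insert hi]
    have h2 := h0 i (Finset.mem_insert_self _ _)
    have h3 : 0 ≤ ∑ j ∈ s, a j := Finset.sum_nonneg fun j hj => h0 j (Finset.mem_insert_of_mem hj)
    have h4 := ih (fun j hj => h0 j (Finset.mem_insert_of_mem hj)) (by linarith)
      fun j hj => hp j (Finset.mem_insert_of_mem hj)
    have h5 := hp i (Finset.mem_insert_self _ _)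
    calc 1 - (a i + ∑ j ∈ s, a j) ≤ (1 - a i) * (1 - ∑ j ∈ s, a j) := by nlinarith
      _ ≤ p i * ∏ j ∈ s, p j := mul_le_mul h5 h4 (by linarith) (by linarith)

/-- the spread out unit vector -/
noncomputable def cocycle_eta (N : ℕ) (n : ℤ) : ℝ := if 1 ≤ n ∧ n ≤ N then 1 / √N else 0

/-- the local unit vectors -/
noncomputable def cocycle_xi (N : ℕ) (t : ℝ) (n : ℤ) : ℝ :=
  Real.cos (Real.pi / 2 * t) * (if n = 0 then 1 else 0) +
    Real.sin (Real.pi / 2 * t) * cocycle_eta N n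

theorem cocycle_eta_shift {N : ℕ} (hN : 1 ≤ N) (d : ℤ) :
    1 - |(d : ℝ)| / N ≤ ∑ n ∈ Finset.Icc (0 : ℤ) N, cocycle_eta N n * cocycle_eta N (n + d) := by
  have hN' : (0 : ℝ) < N := by exact_mod_cast hN
  have h1 : ∑ n ∈ Finset.Icc (max 1 (1 - d)) (min (N : ℤ) (N - d)), (1 / N : ℝ) ≤
      ∑ n ∈ Finset.Icc (0 : ℤ) N, cocycle_eta N n * cocycle_eta N (n + d) := by
    have e : ∀ n ∈ Finset.Icc (max 1 (1 - d)) (min (N : ℤ) (N - d)),
        (1 / N : ℝ) = cocycle_eta N n * cocycle_eta N (n + d) := by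
      intro n hn
      rw [Finset.mem_Icc] at hn
      rw [cocycle_eta, cocycle_eta, if_pos (by omega), if_pos (by omega), one_div_mul_one_div,
        Real.mul_self_sqrt hN'.le]
    rw [Finset.sum_congr rfl e]
    refine Finset.sum_le_sum_of_subset_of_nonneg (fun n hn => ?_) fun n _ _ => ?_
    · rw [Finset.mem_Icc] at hn ⊢
      omega
    · unfold cocycle_eta
      split_ifs <;> positivity
  refine le_trans ?_ h1
  rw [Finset.sum_const, Int.card_Icc, nsmul_eq_mul]
  have h2 : (N : ℤ) - |d| ≤ ((min (N : ℤ) (N - d) + 1 - max 1 (1 - d)).toNat : ℤ) := by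
    rcases abs_cases d with h | h <;> omega
  have h3 : (N : ℝ) - |(d : ℝ)| ≤ ((min (N : ℤ) (N - d) + 1 - max 1 (1 - d)).toNat : ℝ) := by
    exact_mod_cast h2
  calc 1 - |(d : ℝ)| / N = (N - |(d : ℝ)|) * (1 / N) := by field_simp
    _ ≤ _ := by gcongr

theorem cocycle_eta_sq {N : ℕ} (hN : 1 ≤ N) :
    ∑ n ∈ Finset.Icc (0 : ℤ) N, cocycle_eta N n * cocycle_eta N n = 1 := by
  have hN' : (0 : ℝ) < N := by exact_mod_cast hN
  have e : ∀ n ∈ Finset.Icc (1 : ℤ) N, cocycle_eta N n * cocycle_eta N n = (1 / N : ℝ) := by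
    intro n hn
    rw [Finset.mem_Icc] at hn
    rw [cocycle_eta, if_pos hn, one_div_mul_one_div, Real.mul_self_sqrt hN'.le]
  rw [← Finset.sum_subset (s₁ := Finset.Icc (1 : ℤ) N) (Finset.Icc_subset_Icc_left (by norm_num)),
    Finset.sum_congr rfl e, Finset.sum_const, Int.card_Icc, nsmul_eq_mul]
  · simp only [add_sub_cancel_right, Int.toNat_natCast]
    field_simp
  · intro n _ hn
    rw [Finset.mem_Icc] at hn
    rw [cocycle_eta, if_neg hn, zero_mul]

theorem cocycle_xi_inner {N : ℕ} (hN : 1 ≤ N) (t t' : ℝ) :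
    ∑ n ∈ Finset.Icc (0 : ℤ) N, cocycle_xi N t n * cocycle_xi N t' n =
      Real.cos (Real.pi / 2 * t - Real.pi / 2 * t') := by
  have e : ∀ n : ℤ, cocycle_xi N t n * cocycle_xi N t' n =
      (if n = 0 then Real.cos (Real.pi / 2 * t) * Real.cos (Real.pi / 2 * t') else 0) +
      Real.sin (Real.pi / 2 * t) * Real.sin (Real.pi / 2 * t') *
        (cocycle_eta N n * cocycle_eta N n) := by
    intro n
    unfold cocycle_xi
    split_ifs with h
    · subst h
      simp [cocycle_eta]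
    · ring
  simp only [e]
  rw [Finset.sum_add_distrib, ← Finset.mul_sum, cocycle_eta_sq hN, Finset.sum_ite_eq',
    if_pos (by simp), Real.cos_sub, mul_one]

theorem cocycle_xi_factor {N : ℕ} (hN : 1 ≤ N) (t t' : ℝ) (d : ℤ) (h : d ≠ 0 → t = 1 ∧ t' = 1) :
    1 - (2 * (t' - t) ^ 2 + |(d : ℝ)| / N) ≤
      ∑ n ∈ Finset.Icc (0 : ℤ) N, cocycle_xi N t n * cocycle_xi N t' (n + d) := by
  by_cases hd : d = 0
  · subst hd
    simp only [add_zero, cocycle_xi_inner hN, Int.cast_zero, abs_zero, zero_div]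
    refine le_trans ?_ (Real.one_sub_sq_div_two_le_cos)
    have h1 : Real.pi ^ 2 ≤ 16 := by nlinarith [Real.pi_le_four, Real.pi_pos]
    have h2 : (Real.pi / 2 * t - Real.pi / 2 * t') ^ 2 = Real.pi ^ 2 / 4 * (t' - t) ^ 2 := by ring
    rw [h2]
    nlinarith [sq_nonneg (t' - t)]
  · obtain ⟨rfl, rfl⟩ := h hd
    simpa [cocycle_xi] using cocycle_eta_shift hN d

theorem cocycle_xi_zero (N : ℕ) : cocycle_xi N 0 0 = 1 := by simp [cocycle_xi]

theorem cocycle_xi_ne (N : ℕ) {n : ℤ} (h : n ≠ 0) : cocycle_xi N 0 n = 0 := by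
  simp [cocycle_xi, h]

theorem cocycle_xi_out {N : ℕ} (t : ℝ) {n : ℤ} (h : n ∉ Finset.Icc (0 : ℤ) N) :
    cocycle_xi N t n = 0 := by
  rw [Finset.mem_Icc] at h
  rw [cocycle_xi, cocycle_eta, if_neg (by omega), if_neg (by omega)]
  simp

open Classical in
/-- extension by zero -/
noncomputable def cocycle_ext (T : Finset O) (a : T → ℤ) : cocycle_Y O :=
  ⟨fun x => if h : x ∈ T then a ⟨x, h⟩ else 0, T.finite_toSet.subset fun x hx => by
    by_contra h
    exact hx (dif_neg h)⟩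

theorem cocycle_ext_mem (T : Finset O) (a : T → ℤ) (x : T) : (cocycle_ext T a).val x = a x :=
  dif_pos x.2

theorem cocycle_ext_not (T : Finset O) (a : T → ℤ) {x : O} (h : x ∉ T) :
    (cocycle_ext T a).val x = 0 := dif_neg h

theorem cocycle_ext_inj (T : Finset O) : Function.Injective (cocycle_ext T) := fun a b h => by
  funext x
  rw [← cocycle_ext_mem T a, h, cocycle_ext_mem]

/-- the product vector -/
theorem cocycle_vec (φ : O →₀ ℝ) (N : ℕ) (T : Finset O) (hT : φ.support ⊆ T) :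
    ∃ Ξ : cocycle_Y O →₀ ℝ, (∀ f, Ξ f = ∏ᶠ x, cocycle_xi N (φ x) (f.val x)) ∧
      ∀ (G : cocycle_Y O → ℝ) (p : O → ℤ → ℝ),
        (∀ a : T → ℤ, G (cocycle_ext T a) = ∏ x : T, p x (a x)) →
        ∑ f ∈ Ξ.support, Ξ f * G f =
          ∏ x ∈ T, ∑ n ∈ Finset.Icc (0 : ℤ) N, cocycle_xi N (φ x) n * p x n := by
  classical
  have hφ : ∀ x, x ∉ T → φ x = 0 := fun x hx => Finsupp.notMem_support_iff.1 fun h => hx (hT h)
  have hsupp : ∀ f : cocycle_Y O, (∏ᶠ x, cocycle_xi N (φ x) (f.val x)) ≠ 0 →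
      f ∈ (Fintype.piFinset fun _ : T => Finset.Icc (0 : ℤ) N).image (cocycle_ext T) := by
    intro f hf
    have hm : (Function.mulSupport fun x => cocycle_xi N (φ x) (f.val x)).Finite := by
      refine (T.finite_toSet.union f.fin).subset fun x hx => ?_
      by_contra h
      simp only [Set.mem_union, Finset.mem_coe, Function.mem_support, not_or, not_not] at h
      exact hx (by simp only [hφ x h.1, h.2, cocycle_xi_zero])
    have h1 : ∀ x, cocycle_xi N (φ x) (f.val x) ≠ 0 := fun x hx =>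
      hf (finprod_eq_zero _ x hx hm)
    refine Finset.mem_image.2 ⟨fun x => f.val x, Fintype.mem_piFinset.2 fun x => ?_, ?_⟩
    · by_contra h
      exact h1 x (cocycle_xi_out _ h)
    · ext x
      by_cases hx : x ∈ T
      · exact cocycle_ext_mem T _ ⟨x, hx⟩
      · rw [cocycle_ext_not T _ hx]
        by_contra h
        exact h1 x (by rw [hφ x hx, cocycle_xi_ne N (Ne.symm h)])
  refine ⟨Finsupp.onFinset _ _ hsupp, fun f => rfl, fun G p hG => ?_⟩
  rw [Finset.sum_subset Finsupp.support_onFinset_subset fun f _ hf => by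
    rw [Finsupp.notMem_support_iff.1 hf, zero_mul], Finset.sum_image
      fun a _ b _ h => cocycle_ext_inj T h, ← Finset.prod_coe_sort T, Finset.prod_univ_sum]
  refine Finset.sum_congr rfl fun a _ => ?_
  rw [hG, Finset.prod_mul_distrib, Finsupp.onFinset_apply,
    finprod_eq_prod_of_mulSupport_subset (s := T) _ fun x hx => ?_, ← Finset.prod_coe_sort T]
  · simp only [cocycle_ext_mem]
  · by_contra h
    exact hx (by simp only [hφ x h, cocycle_ext_not T a h, cocycle_xi_zero])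

theorem cocycle_im (hR : Rec Γ O) (D : Γ → O → ℤ)
    (hD : ∀ g h x, D (g * h) x = D g (h • x) + D h x) (hfin : ∀ g, {x | D g x ≠ 0}.Finite) :
    @HasIM Γ (cocycle_Y O) _ (cocycle_act D hD hfin) := by
  classical
  let _ := cocycle_act D hD hfin
  refine im_of_l2 fun S ε hε => ?_
  obtain ⟨δ, hδ, hδε, hδ1⟩ : ∃ δ : ℝ, 0 < δ ∧ δ ≤ ε ∧ δ ≤ 1 :=
    ⟨min ε 1, lt_min hε one_pos, min_le_left _ _, min_le_right _ _⟩
  obtain ⟨φ, hφ1, hφ2⟩ := hR S (S.biUnion fun s => (hfin s).toFinset ∪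
    (hfin s).toFinset.image fun x => s • x) (δ / 4) (by positivity)
  obtain ⟨T, hT1, hT2, hT3⟩ : ∃ T : Finset O, φ.support ⊆ T ∧ (∀ s ∈ S, ∀ x, φ (s • x) ≠ 0 → x ∈ T) ∧
      ∀ s ∈ S, ∀ x, D s x ≠ 0 → x ∈ T := by
    refine ⟨φ.support ∪ S.biUnion fun s => (φ.support.image fun x => s⁻¹ • x) ∪ (hfin s).toFinset,
      Finset.subset_union_left, fun s hs x hx => ?_, fun s hs x hx => ?_⟩
    · refine Finset.mem_union_right _ (Finset.mem_biUnion.2 ⟨s, hs, Finset.mem_union_left _ ?_⟩)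
      exact Finset.mem_image.2 ⟨s • x, Finsupp.mem_support_iff.2 hx, by simp⟩
    · refine Finset.mem_union_right _ (Finset.mem_biUnion.2 ⟨s, hs, Finset.mem_union_right _ ?_⟩)
      exact (hfin s).mem_toFinset.2 hx
  obtain ⟨N, hN1, hN2⟩ : ∃ N : ℕ, 1 ≤ N ∧ ∀ s ∈ S, (∑ x ∈ T, |(D s x : ℝ)|) / N ≤ δ / 2 := by
    obtain ⟨N, hN⟩ := exists_nat_ge ((∑ s ∈ S, ∑ x ∈ T, |(D s x : ℝ)|) / (δ / 2))
    refine ⟨N + 1, by omega, fun s hs => ?_⟩
    rw [div_le_iff₀ (by positivity)] at hN ⊢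
    have h1 : ∑ x ∈ T, |(D s x : ℝ)| ≤ ∑ s ∈ S, ∑ x ∈ T, |(D s x : ℝ)| :=
      Finset.single_le_sum (f := fun s => ∑ x ∈ T, |(D s x : ℝ)|)
        (fun _ _ => Finset.sum_nonneg fun _ _ => abs_nonneg _) hs
    push_cast
    nlinarith
  obtain ⟨Ξ, hΞ, hsum⟩ := cocycle_vec φ N T hT1
  have hφ0 : ∀ x, x ∉ T → φ x = 0 := fun x hx => Finsupp.notMem_support_iff.1 fun h => hx (hT1 h)
  refine ⟨Ξ, ?_, fun s hs => ?_⟩
  · simp only [sq]
    rw [hsum Ξ (fun x n => cocycle_xi N (φ x) n) fun a => ?_]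
    · simp [cocycle_xi_inner hN1]
    · rw [hΞ, finprod_eq_prod_of_mulSupport_subset (s := T) _ fun x hx => ?_,
        ← Finset.prod_coe_sort T]
      · simp only [cocycle_ext_mem]
      · by_contra h
        exact hx (by simp only [hφ0 x h, cocycle_ext_not T a h, cocycle_xi_zero])
  · rw [hsum (fun f => Ξ (s • f)) (fun x n => cocycle_xi N (φ (s • x)) (n + D s x)) fun a => ?_]
    · have h1 : ∑ x ∈ T, (2 * (φ (s • x) - φ x) ^ 2 + |(D s x : ℝ)| / N) ≤ δ := by
        rw [Finset.sum_add_distrib, ← Finset.mul_sum, ← Finset.sum_div]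
        linarith [hφ2 s hs T, hN2 s hs]
      refine le_trans (by linarith) (cocycle_prod T _ _ (fun x _ => by positivity) (h1.trans hδ1)
        fun x _ => cocycle_xi_factor hN1 _ _ _ fun hx => ⟨hφ1 _ ?_, hφ1 _ ?_⟩)
      · exact Finset.mem_biUnion.2 ⟨s, hs, Finset.mem_union_left _ ((hfin s).mem_toFinset.2 hx)⟩
      · exact Finset.mem_biUnion.2 ⟨s, hs, Finset.mem_union_right _
          (Finset.mem_image_of_mem _ ((hfin s).mem_toFinset.2 hx))⟩
    · have e : ∀ x, (s • cocycle_ext T a).val (s • x) = (cocycle_ext T a).val x + D s x := by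
        intro x
        show (cocycle_ext T a).val (s⁻¹ • s • x) + D s (s⁻¹ • s • x) = _
        rw [inv_smul_smul]
      rw [hΞ, ← finprod_comp_equiv (MulAction.toPerm s)]
      simp only [MulAction.toPerm_apply, e]
      rw [finprod_eq_prod_of_mulSupport_subset (s := T) _ fun x hx => ?_, ← Finset.prod_coe_sort T]
      · simp only [cocycle_ext_mem]
      · by_contra h
        have h1 : φ (s • x) = 0 := by
          by_contra h1
          exact h (hT2 s hs x h1)
        have h2 : D s x = 0 := by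
          by_contra h2
          exact h (hT3 s hs x h2)
        exact hx (by simp only [h1, h2, cocycle_ext_not T a h, add_zero, cocycle_xi_zero])

/-- Proof. Let `Γ` act on (a type synonym `Y` of) `O →₀ ℤ` by `(g • f) (g • x) = f x + D g x`.
*Invariant mean* (`im_of_l2`). Given `S`, take `F` containing the supports of the `D s` and their
images by `s`, `φ` from `hR`, `θ x = π / 2 * φ x`, `N` large, `η n = 1 / √N` for `1 ≤ n ≤ N` and `0`
otherwise, `ξ x n = cos (θ x) * [n = 0] + sin (θ x) * η n` (a unit vector; `[n = 0]` if `φ x = 0`).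
Let `T` be a finite set containing `φ.support` and the `s⁻¹ • φ.support`, and
`Ξ f = ∏ x ∈ T, ξ x (f x)` if `f.support ⊆ T`, `0` otherwise (independent of `T`). Then
`∑ f, Ξ f * Ξ (s • f) = ∏ x ∈ T, ∑ n, ξ x n * ξ (s • x) (n + D s x)` (`Finset.prod_univ_sum` or
induction on `T`); the factor is `1 - |D s x| / N` if `D s x ≠ 0`, and
`cos (θ x - θ (s • x)) ≥ 1 - (θ x - θ (s • x)) ^ 2 / 2` otherwise; `∏ (1 - a x) ≥ 1 - ∑ a x`.
*Stabilisers* (`amen_of_stab`). An element of the stabiliser of `f` which fixes `f.support`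
pointwise has `D g x = f (g • x) - f x = 0` for all `x`; use `Rec.subgroup` and
`Rec.amen_of_fixing`. -/
theorem amen_of_cocycle (hR : Rec Γ O) (D : Γ → O → ℤ)
    (hD : ∀ g h x, D (g * h) x = D g (h • x) + D h x) (hfin : ∀ g, {x | D g x ≠ 0}.Finite)
    (K : Subgroup Γ) (hK : ∀ g, (∀ x, D g x = 0) → g ∈ K) (hA : Amenable K) : Amenable Γ := by
  let _ := cocycle_act D hD hfin
  refine amen_of_stab (cocycle_im hR D hD hfin) fun f => ?_
  refine (hR.subgroup (MulAction.stabilizer Γ f)).amen_of_fixing f.fin.toFinset hA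
    (((MulAction.stabilizer Γ f).subtype.comp (Subgroup.subtype _)).codRestrict K
      fun g => hK _ fun x => ?_) fun g g' h => ?_
  · have h1 : (g.1.1 • f).val (g.1.1 • x) = f.val x + D g.1.1 x := by
      show f.val (g.1.1⁻¹ • g.1.1 • x) + D g.1.1 (g.1.1⁻¹ • g.1.1 • x) = _
      rw [inv_smul_smul]
    rw [MulAction.mem_stabilizer_iff.1 g.1.2] at h1
    have h2 : ∀ y, f.val y ≠ 0 → g.1.1 • y = y := fun y hy =>
      (mem_fixingSubgroup_iff _).1 g.2 y (by simpa using hy)
    show D g.1.1 x = 0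
    by_cases hx : f.val x = 0
    · by_cases hy : f.val (g.1.1 • x) = 0
      · omega
      · have h3 := h2 _ hy
        rw [smul_left_cancel_iff] at h3
        rw [h3] at hy
        exact absurd hx hy
    · rw [h2 x hx] at h1
      omega
  · have h' := congrArg Subtype.val h
    exact Subtype.ext (Subtype.ext h')

end Crest.Agent.R189
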