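import Crest.Agent.R189.Sing
import Crest.Agent.R189.Amen2

/-!
# Row 189, task SingRec: the actions on singular points are recurrent

Use `rec_of_level` with `lev`. For each entry of `exists_sg_table g` and each of the cases
`r0, r1, r2` the points of level `n` whose level changes depend on at most two natural numbers with
a fixed sum, so that there are at most `n + 1` of them (the first one, which is at most `n`,
determines the point); in the case `r3` the level does not change since `deg m' = deg m`.
* `Orb T`: `r0`: one point; `r1`: `a`; `r2`: `(a, b)`.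
* `Orb Z`: `r0`: `y`; `r1`: `(a, y)`; `r2`: entry of type `T`: no change by `Kz T`; of type `Y`:
  `b = 0`, `(a, y)`. `Orb Y`: the same with `x`.
* `Orb W`: `r0`: `(x, y)`; `r1`: no change by `Jz T`, `Jz Z`; `r2`: no change by `Kz T`, `Kz Y`.
-/

set_option autoImplicit false
set_option linter.unusedSimpArgs false

namespace Crest.Agent.R189

open Equiv

variable {ι : Type} [Finite ι]

/-- the level of a singular point -/
def lev (s : Sg ι) : ℕ := pdeg s.p + s.x.getD 0 + s.y.getD 0

private theorem singrec_pdeg_cons (a : ℕ) (p : List ℕ) : pdeg (a :: p) = a + 1 + pdeg p := by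
  simp [pdeg]

private theorem singrec_pdeg_append (p q : List ℕ) : pdeg (p ++ q) = pdeg p + pdeg q := by
  simp [pdeg]

private theorem singrec_pdeg_nil : pdeg [] = 0 := rfl

private theorem singrec_finite_pdeg (n : ℕ) : {p : List ℕ | pdeg p ≤ n}.Finite := by
  induction n with
  | zero =>
    refine (Set.finite_singleton []).subset ?_
    rintro (_ | ⟨a, p⟩) hp
    · rfl
    · simp only [Set.mem_ofPred_eq, singrec_pdeg_cons] at hp
      omega
  | succ n ih =>
    refine ((Set.finite_singleton []).union
      (Set.Finite.image2 List.cons (Set.finite_Iic n) ih)).subset ?_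
    rintro (_ | ⟨a, p⟩) hp
    · exact Or.inl rfl
    · simp only [Set.mem_ofPred_eq, singrec_pdeg_cons] at hp
      refine Or.inr ⟨a, ?_, p, ?_, rfl⟩
      · simp only [Set.mem_Iic]; omega
      · simp only [Set.mem_ofPred_eq]; omega

private theorem singrec_finite_opt (n : ℕ) : {o : Option ℕ | o.getD 0 ≤ n}.Finite := by
  refine ((Set.finite_singleton none).union ((Set.finite_Iic n).image some)).subset ?_
  rintro (_ | a) ha
  · exact Or.inl rfl
  · exact Or.inr ⟨a, ha, rfl⟩

theorem finite_lev (n : ℕ) : {s : Sg ι | lev s ≤ n}.Finite := by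
  have h := ((Set.finite_univ (α := ι)).prod ((singrec_finite_pdeg n).prod
    ((singrec_finite_opt n).prod (singrec_finite_opt n)))).image
    (fun u : ι × List ℕ × Option ℕ × Option ℕ => (⟨u.1, u.2.1, u.2.2.1, u.2.2.2⟩ : Sg ι))
  refine h.subset ?_
  rintro ⟨i, p, x, y⟩ hs
  simp only [Set.mem_ofPred_eq, lev] at hs
  refine ⟨(i, p, x, y), ⟨trivial, ?_, ?_, ?_⟩, rfl⟩ <;> simp only [Set.mem_ofPred_eq] <;> omega

private theorem singrec_oadd_le (o : Option ℕ) (a b : ℕ) :
    (oadd o a).getD 0 ≤ (oadd o b).getD 0 + a := by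
  cases o with
  | none => simp [oadd]
  | some v => simp only [oadd, Option.map_some, Option.getD_some]; omega

omit [Finite ι] in
private theorem singrec_ent_le {i i' : ι} {m m' : Mk} {t : Ty} {s s' : Sg ι} {e₁ e₂ : ℤ}
    (he : Ent i m t i' m' s s' e₁ e₂) : lev s' ≤ lev s + m'.deg := by
  cases he with
  | r0 x y hx hy =>
    have h1 := singrec_oadd_le x m'.j m.j
    have h2 := singrec_oadd_le y m'.k m.k
    simp only [lev, Mk.deg]
    omega
  | r1 a x y hx hy =>
    have h1 := singrec_oadd_le x m'.k m.k
    simp only [lev, Mk.deg, singrec_pdeg_append, singrec_pdeg_cons, singrec_pdeg_nil]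
    omega
  | r2 a b x y hx hy =>
    simp only [lev, Mk.deg, singrec_pdeg_append, singrec_pdeg_cons, singrec_pdeg_nil]
    omega
  | r3 a b c q x y hx hy =>
    simp only [lev, Mk.deg, singrec_pdeg_append, singrec_pdeg_cons, singrec_pdeg_nil]
    omega

theorem lev_smul_le (g : G ι) : ∃ C : ℕ, ∀ s : Sg ι, lev (g • s) ≤ lev s + C := by
  obtain ⟨T, -, h⟩ := exists_sg_table g
  refine ⟨T.sup fun l => l.2.2.2.deg, fun s => ?_⟩
  obtain ⟨l, hl, he⟩ := h s
  have h1 := singrec_ent_le he
  have h2 : l.2.2.2.deg ≤ T.sup fun l => l.2.2.2.deg :=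
    Finset.le_sup (f := fun l : ι × Pc × ι × Mk => l.2.2.2.deg) hl
  omega

/-- the counting: the points whose level changes are among explicit candidates -/
private theorem singrec_count (O : SubMulAction (G ι) (Sg ι)) (g : G ι)
    (cand : ι → Mk → ℕ → ℕ → ℕ → Sg ι)
    (h : ∀ i m t i' m' s s' e₁ e₂, CanE g i m t i' m' → Ent i m t i' m' s s' e₁ e₂ → s ∈ O →
      lev s' ≠ lev s → ∃ c a, c < 3 ∧ a ≤ lev s ∧ s = cand i m (lev s) c a) :
    ∃ C : ℕ, ∀ n, {x : O | lev x.1 = n ∧ lev (g • x.1) ≠ n}.ncard ≤ C * (n + 1) := by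
  classical
  obtain ⟨T, hT, hs⟩ := exists_sg_table g
  refine ⟨T.card * 3, fun n => ?_⟩
  have hsub : Subtype.val '' {x : O | lev x.1 = n ∧ lev (g • x.1) ≠ n} ⊆
      ((T ×ˢ Finset.range 3 ×ˢ Finset.range (n + 1)).image
        (fun u => cand u.1.1 u.1.2.1.m n u.2.1 u.2.2) : Finset (Sg ι)) := by
    rintro _ ⟨x, ⟨h1, h2⟩, rfl⟩
    obtain ⟨l, hl, he⟩ := hs x.1
    obtain ⟨c, a, hc, ha, hx⟩ := h _ _ _ _ _ _ _ _ _ (hT l hl) he x.2 (by rw [h1]; exact h2)
    rw [h1] at ha hx
    refine Finset.mem_coe.mpr (Finset.mem_image.mpr ⟨(l, c, a), ?_, hx.symm⟩)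
    simp only [Finset.mem_product, Finset.mem_range]
    exact ⟨hl, hc, by omega⟩
  rw [← Set.ncard_image_of_injective _ Subtype.val_injective]
  refine (Set.ncard_le_ncard hsub (Finset.finite_toSet _)).trans ?_
  rw [Set.ncard_coe_finset]
  refine Finset.card_image_le.trans ?_
  simp [Finset.card_product, mul_assoc]

private theorem singrec_rec (O : SubMulAction (G ι) (Sg ι)) (Γ : Subgroup (G ι))
    (cand : ι → Mk → ℕ → ℕ → ℕ → Sg ι)
    (h : ∀ g ∈ Γ, ∀ i m t i' m' s s' e₁ e₂, CanE g i m t i' m' → Ent i m t i' m' s s' e₁ e₂ →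
      s ∈ O → lev s' ≠ lev s → ∃ c a, c < 3 ∧ a ≤ lev s ∧ s = cand i m (lev s) c a) :
    Rec Γ O := by
  refine rec_of_level (fun x : O => lev x.1) (fun n => ?_) (fun g => ?_)
  · exact (finite_lev n).preimage Subtype.val_injective.injOn
  · obtain ⟨C₁, h₁⟩ := lev_smul_le (g : G ι)
    obtain ⟨C₂, h₂⟩ := singrec_count O (g : G ι) cand (h g g.2)
    refine ⟨C₁ + C₂, fun x => ?_, fun n => ?_⟩
    · have := h₁ x.1
      change lev ((g : G ι) • x.1) ≤ _
      omega
    · exact (h₂ n).trans (Nat.mul_le_mul_right _ (Nat.le_add_left _ _))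

private theorem singrec_none {o : Option ℕ} {n : ℕ} (h : (oadd o n).isSome = false) :
    o = none := by
  cases o <;> simp_all [oadd]

private theorem singrec_some {o : Option ℕ} {n : ℕ} (h : (oadd o n).isSome = true) :
    ∃ v, o = some v := by
  cases o <;> simp_all [oadd]

private theorem singrec_none' {o : Option ℕ} (h : o.isSome = false) : o = none := by
  cases o <;> simp_all

private theorem singrec_some' {o : Option ℕ} (h : o.isSome = true) : ∃ v, o = some v := by
  cases o <;> simp_all

/-- candidates for the type `T` -/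
private def singrec_cT (i : ι) (m : Mk) (n c a : ℕ) : Sg ι :=
  if c = 0 then ⟨i, m.p, none, none⟩
  else if c = 1 then ⟨i, m.p ++ [a], none, none⟩
  else ⟨i, m.p ++ [a, n - (pdeg m.p + a + 2)], none, none⟩

/-- candidates for the type `Z` -/
private def singrec_cZ (i : ι) (m : Mk) (n c a : ℕ) : Sg ι :=
  if c = 0 then ⟨i, m.p, none, some a⟩
  else if c = 1 then ⟨i, m.p ++ [a], none, some (n - (pdeg m.p + a + 1))⟩
  else ⟨i, m.p ++ [a, m.j], none, some (n - (pdeg m.p + a + m.j + 2))⟩

/-- candidates for the type `Y` -/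
private def singrec_cY (i : ι) (m : Mk) (n c a : ℕ) : Sg ι :=
  if c = 0 then ⟨i, m.p, some a, none⟩
  else if c = 1 then ⟨i, m.p ++ [a], some (n - (pdeg m.p + a + 1)), none⟩
  else ⟨i, m.p ++ [a, m.j], some (n - (pdeg m.p + a + m.j + 2)), none⟩

/-- candidates for the type `W` -/
private def singrec_cW (i : ι) (m : Mk) (n _c a : ℕ) : Sg ι :=
  ⟨i, m.p, some a, some (n - (pdeg m.p + a))⟩

theorem rec_T (Γ : Subgroup (G ι)) : Rec Γ (Orb ι .T) := by
  refine singrec_rec _ Γ singrec_cT ?_
  intro g _ i m t i' m' s s' e₁ e₂ hc he hs hne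
  have hd := hc.1
  simp only [Mk.deg] at hd
  obtain ⟨h1, h2⟩ := mem_Orb.mp hs
  cases he with
  | r0 x y hx hy =>
    obtain rfl := singrec_none h1
    obtain rfl := singrec_none h2
    exact ⟨0, 0, by omega, by omega, rfl⟩
  | r1 a x y hx hy =>
    obtain rfl := singrec_none h1
    obtain rfl := singrec_none' h2
    refine ⟨1, a + m.i, by omega, ?_, rfl⟩
    simp only [lev, oadd, Option.map_none, Option.map_some, Option.getD_none, Option.getD_some,
      singrec_pdeg_append, singrec_pdeg_cons, singrec_pdeg_nil]
    omega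
  | r2 a b x y hx hy =>
    obtain rfl := singrec_none' h1
    obtain rfl := singrec_none' h2
    refine ⟨2, a + m.i, by omega, ?_, ?_⟩
    · simp only [lev, oadd, Option.map_none, Option.map_some, Option.getD_none, Option.getD_some,
      singrec_pdeg_append, singrec_pdeg_cons, singrec_pdeg_nil]
      omega
    · simp only [lev, oadd, Option.map_none, Option.map_some, Option.getD_none, Option.getD_some,
      singrec_pdeg_append, singrec_pdeg_cons, singrec_pdeg_nil]
      simp only [singrec_cT, if_neg (show (2 : ℕ) ≠ 0 by omega), if_neg (show (2 : ℕ) ≠ 1 by omega)]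
      congr 4
      omega
  | r3 a b c q x y hx hy =>
    exfalso
    apply hne
    simp only [lev, oadd, Option.map_none, Option.map_some, Option.getD_none, Option.getD_some,
      singrec_pdeg_append, singrec_pdeg_cons, singrec_pdeg_nil]
    omega

theorem rec_Z (Γ : Subgroup (G ι)) (h : ∀ g ∈ Γ, Kz .T g) : Rec Γ (Orb ι .Z) := by
  refine singrec_rec _ Γ singrec_cZ ?_
  intro g hg i m t i' m' s s' e₁ e₂ hc he hs hne
  have hd := hc.1
  simp only [Mk.deg] at hd
  obtain ⟨h1, h2⟩ := mem_Orb.mp hs
  cases he with
  | r0 x y hx hy =>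
    obtain rfl := singrec_none h1
    obtain ⟨v, rfl⟩ := singrec_some h2
    refine ⟨0, v + m.k, by omega, ?_, rfl⟩
    simp only [lev, oadd, Option.map_none, Option.map_some, Option.getD_none, Option.getD_some,
      singrec_pdeg_append, singrec_pdeg_cons, singrec_pdeg_nil]
    omega
  | r1 a x y hx hy =>
    obtain rfl := singrec_none h1
    obtain ⟨v, rfl⟩ := singrec_some' h2
    refine ⟨1, a + m.i, by omega, ?_, ?_⟩
    · simp only [lev, oadd, Option.map_none, Option.map_some, Option.getD_none, Option.getD_some,
        singrec_pdeg_append, singrec_pdeg_cons, singrec_pdeg_nil]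
      omega
    · simp only [lev, oadd, Option.map_none, Option.map_some, Option.getD_none, Option.getD_some,
        singrec_pdeg_append, singrec_pdeg_cons, singrec_pdeg_nil]
      simp only [singrec_cZ, if_neg (show (1 : ℕ) ≠ 0 by omega), if_pos]
      congr 2
      omega
  | r2 a b x y hx hy =>
    obtain rfl := singrec_none' h1
    obtain ⟨v, rfl⟩ := singrec_some' h2
    cases t with
    | T =>
      exfalso
      have hk := h g hg _ _ _ _ hc
      apply hne
      simp only [lev, oadd, Option.map_none, Option.map_some, Option.getD_none, Option.getD_some,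
        singrec_pdeg_append, singrec_pdeg_cons, singrec_pdeg_nil]
      omega
    | Y =>
      obtain rfl := hx rfl
      refine ⟨2, a + m.i, by omega, ?_, ?_⟩
      · simp only [lev, oadd, Option.map_none, Option.map_some, Option.getD_none, Option.getD_some,
          singrec_pdeg_append, singrec_pdeg_cons, singrec_pdeg_nil]
        omega
      · simp only [lev, oadd, Option.map_none, Option.map_some, Option.getD_none, Option.getD_some,
          singrec_pdeg_append, singrec_pdeg_cons, singrec_pdeg_nil]
        simp only [singrec_cZ, if_neg (show (2 : ℕ) ≠ 0 by omega),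
          if_neg (show (2 : ℕ) ≠ 1 by omega), zero_add]
        congr 2
        omega
    | Z => exact absurd hy (by decide)
    | W => exact absurd hy (by decide)
  | r3 a b c q x y hx hy =>
    exfalso
    apply hne
    simp only [lev, oadd, Option.map_none, Option.map_some, Option.getD_none, Option.getD_some,
      singrec_pdeg_append, singrec_pdeg_cons, singrec_pdeg_nil]
    omega

theorem rec_Y (Γ : Subgroup (G ι)) (h : ∀ g ∈ Γ, Kz .T g) : Rec Γ (Orb ι .Y) := by
  refine singrec_rec _ Γ singrec_cY ?_
  intro g hg i m t i' m' s s' e₁ e₂ hc he hs hne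
  have hd := hc.1
  simp only [Mk.deg] at hd
  obtain ⟨h1, h2⟩ := mem_Orb.mp hs
  cases he with
  | r0 x y hx hy =>
    obtain ⟨v, rfl⟩ := singrec_some h1
    obtain rfl := singrec_none h2
    refine ⟨0, v + m.j, by omega, ?_, rfl⟩
    simp only [lev, oadd, Option.map_none, Option.map_some, Option.getD_none, Option.getD_some,
      singrec_pdeg_append, singrec_pdeg_cons, singrec_pdeg_nil]
    omega
  | r1 a x y hx hy =>
    obtain ⟨v, rfl⟩ := singrec_some h1
    obtain rfl := singrec_none' h2
    refine ⟨1, a + m.i, by omega, ?_, ?_⟩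
    · simp only [lev, oadd, Option.map_none, Option.map_some, Option.getD_none, Option.getD_some,
        singrec_pdeg_append, singrec_pdeg_cons, singrec_pdeg_nil]
      omega
    · simp only [lev, oadd, Option.map_none, Option.map_some, Option.getD_none, Option.getD_some,
        singrec_pdeg_append, singrec_pdeg_cons, singrec_pdeg_nil]
      simp only [singrec_cY, if_neg (show (1 : ℕ) ≠ 0 by omega), if_pos]
      congr 2
      omega
  | r2 a b x y hx hy =>
    obtain ⟨v, rfl⟩ := singrec_some' h1
    obtain rfl := singrec_none' h2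
    cases t with
    | T =>
      exfalso
      have hk := h g hg _ _ _ _ hc
      apply hne
      simp only [lev, oadd, Option.map_none, Option.map_some, Option.getD_none, Option.getD_some,
        singrec_pdeg_append, singrec_pdeg_cons, singrec_pdeg_nil]
      omega
    | Y =>
      obtain rfl := hx rfl
      refine ⟨2, a + m.i, by omega, ?_, ?_⟩
      · simp only [lev, oadd, Option.map_none, Option.map_some, Option.getD_none, Option.getD_some,
          singrec_pdeg_append, singrec_pdeg_cons, singrec_pdeg_nil]
        omega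
      · simp only [lev, oadd, Option.map_none, Option.map_some, Option.getD_none, Option.getD_some,
          singrec_pdeg_append, singrec_pdeg_cons, singrec_pdeg_nil]
        simp only [singrec_cY, if_neg (show (2 : ℕ) ≠ 0 by omega),
          if_neg (show (2 : ℕ) ≠ 1 by omega), zero_add]
        congr 2
        omega
    | Z => exact absurd hy (by decide)
    | W => exact absurd hy (by decide)
  | r3 a b c q x y hx hy =>
    exfalso
    apply hne
    simp only [lev, oadd, Option.map_none, Option.map_some, Option.getD_none, Option.getD_some,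
      singrec_pdeg_append, singrec_pdeg_cons, singrec_pdeg_nil]
    omega

theorem rec_W (Γ : Subgroup (G ι)) (h : ∀ g ∈ Γ, Jz .T g ∧ Jz .Z g ∧ Kz .T g ∧ Kz .Y g) :
    Rec Γ (Orb ι .W) := by
  refine singrec_rec _ Γ singrec_cW ?_
  intro g hg i m t i' m' s s' e₁ e₂ hc he hs hne
  have hd := hc.1
  simp only [Mk.deg] at hd
  obtain ⟨h1, h2⟩ := mem_Orb.mp hs
  obtain ⟨hJT, hJZ, hKT, hKY⟩ := h g hg
  cases he with
  | r0 x y hx hy =>
    obtain ⟨v, rfl⟩ := singrec_some h1
    obtain ⟨w, rfl⟩ := singrec_some h2
    refine ⟨0, v + m.j, by omega, ?_, ?_⟩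
    · simp only [lev, oadd, Option.map_none, Option.map_some, Option.getD_none, Option.getD_some,
        singrec_pdeg_append, singrec_pdeg_cons, singrec_pdeg_nil]
      omega
    · simp only [lev, oadd, Option.map_none, Option.map_some, Option.getD_none, Option.getD_some,
        singrec_pdeg_append, singrec_pdeg_cons, singrec_pdeg_nil]
      simp only [singrec_cW]
      congr 2
      omega
  | r1 a x y hx hy =>
    obtain ⟨v, rfl⟩ := singrec_some h1
    have hj : m'.j = m.j := by
      cases t with
      | T => exact hJT _ _ _ _ hc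
      | Z => exact hJZ _ _ _ _ hc
      | Y => exact absurd hx (by decide)
      | W => exact absurd hx (by decide)
    exfalso
    apply hne
    simp only [lev, oadd, Option.map_none, Option.map_some, Option.getD_none, Option.getD_some,
      singrec_pdeg_append, singrec_pdeg_cons, singrec_pdeg_nil]
    omega
  | r2 a b x y hx hy =>
    have hk : m'.k = m.k := by
      cases t with
      | T => exact hKT _ _ _ _ hc
      | Y => exact hKY _ _ _ _ hc
      | Z => exact absurd hy (by decide)
      | W => exact absurd hy (by decide)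
    exfalso
    apply hne
    simp only [lev, oadd, Option.map_none, Option.map_some, Option.getD_none, Option.getD_some,
      singrec_pdeg_append, singrec_pdeg_cons, singrec_pdeg_nil]
    omega
  | r3 a b c q x y hx hy =>
    exfalso
    apply hne
    simp only [lev, oadd, Option.map_none, Option.map_some, Option.getD_none, Option.getD_some,
      singrec_pdeg_append, singrec_pdeg_cons, singrec_pdeg_nil]
    omega

end Crest.Agent.R189
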