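import Crest.Agent.R189.Cocycle
import Crest.Agent.R189.SingFin
import Crest.Agent.R189.SingRec
import Crest.Agent.R189.Tail

/-!
# Row 189: `G` is amenable
-/

set_option autoImplicit false

namespace Crest.Agent.R189

open Equiv Crest.GroupTheory

variable {ι : Type} [Finite ι]

/-- the elements on which a cocycle vanishes over an invariant set -/
def KD (D : G ι → Sg ι → ℤ) (hD : ∀ g h s, D (g * h) s = D g (h • s) + D h s)
    (O : SubMulAction (G ι) (Sg ι)) : Subgroup (G ι) where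
  carrier := {g | ∀ s ∈ O, D g s = 0}
  mul_mem' := fun {g h} hg hh s hs => by
    rw [hD, hg _ (O.smul_mem h hs), hh s hs, add_zero]
  one_mem' := fun s _ => by
    have := hD 1 1 s
    rw [mul_one, one_smul] at this
    omega
  inv_mem' := fun {g} hg s hs => by
    have h1 := hD 1 1 s
    rw [mul_one, one_smul] at h1
    have h2 := hD g g⁻¹ s
    rw [mul_inv_cancel, hg _ (O.smul_mem g⁻¹ hs)] at h2
    omega

theorem amen_step (Γ : Subgroup (G ι)) (D : G ι → Sg ι → ℤ)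
    (hD : ∀ g h s, D (g * h) s = D g (h • s) + D h s) (O : SubMulAction (G ι) (Sg ι))
    (hR : Rec Γ O) (hfin : ∀ g ∈ Γ, {s : O | D g s.1 ≠ 0}.Finite)
    (hA : Amenable (Γ ⊓ KD D hD O : Subgroup (G ι))) : Amenable Γ := by
  refine amen_of_cocycle hR (fun g s => D g.1 s.1) (fun g h s => hD g.1 h.1 s.1)
    (fun g => hfin g.1 g.2) ((KD D hD O).subgroupOf Γ) (fun g hg s hs => hg ⟨s, hs⟩) ?_
  refine amen_of_injective (Γ := (Γ ⊓ KD D hD O : Subgroup (G ι)))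
    { toFun := fun g => ⟨g.1.1, g.1.2, g.2⟩, map_one' := rfl, map_mul' := fun _ _ => rfl } ?_ hA
  intro g h e
  have e' : g.1.1 = h.1.1 :=
    congrArg (fun z : (Γ ⊓ KD D hD O : Subgroup (G ι)) => (z : G ι)) e
  exact Subtype.ext (Subtype.ext e')

theorem amenable_G : Amenable (G ι) := by
  refine amen_of_injective (Γ := (⊤ : Subgroup (G ι)))
    (Subgroup.topEquiv (G := G ι)).symm.toMonoidHom (Subgroup.topEquiv (G := G ι)).symm.injective ?_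
  refine amen_step _ D2 D2_mul (Orb ι .T) (rec_T _) (fun g _ => fin_D2_T g) ?_
  refine amen_step _ D1 D1_mul (Orb ι .T) (rec_T _)
    (fun g h => fin_D1_T (kz_of_D2 h.2)) ?_
  refine amen_step _ D2 D2_mul (Orb ι .Z) (rec_Z _ fun g h => kz_of_D2 h.1.2)
    (fun g h => fin_D2_Z (kz_of_D2 h.1.2)) ?_
  refine amen_step _ D1 D1_mul (Orb ι .Z) (rec_Z _ fun g h => kz_of_D2 h.1.1.2)
    (fun g h => fin_D1_Z (jz_of_D1 h.1.2) (kz_of_D2 h.1.1.2)) ?_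
  refine amen_step _ D2 D2_mul (Orb ι .Y) (rec_Y _ fun g h => kz_of_D2 h.1.1.1.2)
    (fun g h => fin_D2_Y (kz_of_D2 h.1.1.1.2)) ?_
  refine amen_step _ D1 D1_mul (Orb ι .Y) (rec_Y _ fun g h => kz_of_D2 h.1.1.1.1.2)
    (fun g h => fin_D1_Y (jz_of_D1 h.1.1.1.2) (kz_of_D2 h.1.1.1.1.2) (kz_of_D2 h.1.1.2)) ?_
  refine amen_step _ D2 D2_mul (Orb ι .W)
    (rec_W _ fun g h => ⟨jz_of_D1 h.1.1.1.1.2, jz_of_D1 h.1.1.2, kz_of_D2 h.1.1.1.1.1.2,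
      kz_of_D2 h.1.2⟩)
    (fun g h => fin_D2_W (kz_of_D2 h.1.1.1.1.1.2) (kz_of_D2 h.1.2) (kz_of_D2 h.1.1.1.2)) ?_
  refine amen_step _ D1 D1_mul (Orb ι .W)
    (rec_W _ fun g h => ⟨jz_of_D1 h.1.1.1.1.1.2, jz_of_D1 h.1.1.1.2, kz_of_D2 h.1.1.1.1.1.1.2,
      kz_of_D2 h.1.1.2⟩)
    (fun g h => fin_D1_W (jz_of_D1 h.1.1.1.1.1.2) (jz_of_D1 h.1.2) (jz_of_D1 h.1.1.1.2)
      (kz_of_D2 h.1.1.1.1.1.1.2) (kz_of_D2 h.1.1.1.1.2)) ?_
  refine amen_of_tail _ fun g h t => ?_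
  cases t
  · exact ⟨jz_of_D1 h.1.1.1.1.1.1.2, kz_of_D2 h.1.1.1.1.1.1.1.2⟩
  · exact ⟨jz_of_D1 h.1.1.2, kz_of_D2 h.1.1.1.2⟩
  · exact ⟨jz_of_D1 h.1.1.1.1.2, kz_of_D2 h.1.1.1.1.1.2⟩
  · exact ⟨jz_of_D1 h.2, kz_of_D2 h.1.2⟩

end Crest.Agent.R189
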